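import Vale.Agent.P281.H498.TL.Br
import Vale.Agent.P281.H713.TL.Iface

/-! P281, theorem TL, rows T1, T2 and T3. -/

open scoped Manifold ContDiff Topology ComplexOrder
open Set Filter Vale.Agent.P272.K

noncomputable section

namespace Vale.Agent.P281.H498

open Vale.Agent.P281 Vale.Agent.P281.MF Vale.Agent.P281.ISO Vale.Agent.P281.H713.SA
open Vale.Agent.P281.H716 Vale.Agent.P281.H713.KD Vale.Agent.P281.H713.TL

section

variable {n p : ℕ} {X Z Y : Type}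
  [TopologicalSpace X] [ChartedSpace (Cm n) X]
  [TopologicalSpace Z] [ChartedSpace (Cm n) Z]
  [TopologicalSpace Y] [ChartedSpace (Cm p) Y] [IsManifold 𝓘(ℂ, Cm p) ω Y]
  {m : ℕ} {K : Set X → ℕ} {𝒢 : Set (Set Y)} {j : Z → X} {f : Z → Y} {σ : Y → ℂ}

theorem poleAt_of (h : IsPullSection (n := n) (p := p) m K 𝒢 j f σ) (x : X) :
    PoleAt n p m K 𝒢 j f σ x := by
  obtain ⟨T, g, hT, hg, ha⟩ := h.pole x
  refine ⟨T, g, hT, hg, fun I => ?_⟩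
  obtain ⟨a, h1, h2⟩ := ha fun r c => I (finProdFinEquiv (r, c))
  exact ⟨a, h1, h2⟩

theorem isSec_of (h𝒢 : ∀ G ∈ 𝒢, IsPrimeDivisor (Cm p) G)
    (h : IsPullSection (n := n) (p := p) m K 𝒢 j f σ) : IsSec p m (⋃₀ 𝒢) σ := by
  obtain ⟨k, hk, hσ⟩ := h.mero
  intro y hy
  refine section_local hσ fun G hG => ?_
  have hG' : G ∈ 𝒢 := hk G hG
  obtain ⟨g, hg⟩ := (h𝒢 G hG').2.1 y
  exact ⟨g, hg, fun h0 => hy (mem_sUnion_of_mem (hg.mem_iff.2 h0) hG')⟩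

end

/-- **Row T1 of theorem TL** -/
theorem keyPartT : KeyPartT := by
  intro n p μ X Z Y _ _ _ _ _ _ _ _ _ _ _ _ _ _ j hj f hf hsub 𝒢 hfin hpr D _ hDS B hB hBd e x h
    g hg hgD a ha hc I s k
  exact keyThin (thin_of_sub hj hf hsub hfin hpr) hj hf hDS hB hBd h hg hgD ha hc I s k

/-- **Row T2 of theorem TL** -/
theorem tenPartT : TenPartT := by
  intro n p M X Z Y _ _ _ _ _ _ _ _ _ _ _ _ _ _ χ hχ j hj f hf hsub 𝒢 hfin hpr Δ hsnc Dv hinj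
    hDv r R hR m hm K₀ hK₀ σ₀ σ₁ h₀ h₁ l hl
  exact tenPart_pole hχ hj hf (thin_of_sub hj hf hsub hfin hpr) hsnc hinj hDv hR hm hK₀
    (isSec_of hpr h₀) (isSec_of hpr h₁) (poleAt_of h₀) (poleAt_of h₁) hl

/-- **Row T3 of theorem TL** -/
theorem bridgeT : BridgeT := by
  intro n p M X Z Y _ _ _ _ _ _ _ _ _ _ _ _ _ _ χ hχ j hj f hf hsub 𝒢 hfin hpr Δ hsnc Dv hinj
    hDv r R hR m₀ hm₀ N P R' hcore
  intro m K hm hK σ₀ σ₁ h₀ h₁ z hzR hzΔ hzS hsurj h0 a₀ ha₀ v hv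
  exact bridge_pole hχ hj hf (thin_of_sub hj hf hsub hfin hpr) hsnc hinj hDv hR hm₀ hcore hm hK
    (isSec_of hpr h₀) (isSec_of hpr h₁) (poleAt_of h₀) (poleAt_of h₁) hzR hzΔ hzS hsurj h0 ha₀ hv

end Vale.Agent.P281.H498
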