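import Vale.Agent.P281.H498.TL.TensA
import Vale.Agent.P281.H498.TL.Fin
import Vale.Agent.P281.H167.RC.MainI

/-! P281, theorem RC over theorem TL: the tensor of one section. -/

open scoped Manifold ContDiff Topology ComplexOrder

namespace Vale.Agent.P281.H498

/-- `TensT` of theorem RC -/
theorem tensT : H167.RC.TensT := by
  intro n p X Z Y _ _ _ _ _ _ _ _ _ _ _ _ _ _ j hj f hf hsub 𝒢 hfin hpr Δ hsnc m _ K₀ hK₀ σ hσ
    l hl K hK
  exact tens_pole hj (thin_of_sub hj hf hsub hfin hpr) hsnc hK₀ (poleAt_of hσ) hl hK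

end Vale.Agent.P281.H498
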