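import Vale.Agent.P281.H498.TL.Br

/-! P281, theorem RC: the tensor of a pulled back section, with larger poles. -/

open scoped Manifold ContDiff Topology ComplexOrder
open Set Filter Vale.Agent.P272.K

noncomputable section

namespace Vale.Agent.P281.H498

open Vale.Agent.P281 Vale.Agent.P281.MF Vale.Agent.P281.ISO Vale.Agent.P281.H713.SA
open Vale.Agent.P281.H716 Vale.Agent.P299.D Vale.Agent.P281.H787 Vale.Agent.P281.H713.KD

set_option linter.unusedSectionVars false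

variable {n p : ℕ} {X Z Y : Type}
  [TopologicalSpace X] [T2Space X] [ChartedSpace (Cm n) X] [IsManifold 𝓘(ℂ, Cm n) ω X]
  [TopologicalSpace Z] [ChartedSpace (Cm n) Z] [IsManifold 𝓘(ℂ, Cm n) ω Z]
  [TopologicalSpace Y] [T2Space Y] [ConnectedSpace Y]
  [ChartedSpace (Cm p) Y] [IsManifold 𝓘(ℂ, Cm p) ω Y]

/-- tensors with larger poles -/
theorem isTenP_mono {q : ℕ} {K K' : Set X → ℕ} (hle : ∀ D, K' D ≤ K D) {τ : Ten n q X}
    (hτ : IsTenP q K' τ) : IsTenP q K τ := by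
  have hne : ∀ D, K' D ≠ 0 → K D ≠ 0 := fun D hD h0 => hD (by have := hle D; omega)
  refine ⟨fun e x h T g hT hg I => ?_, fun e e' x h h' hav I =>
    hτ.change e e' x h h' (fun D hD => hav D (hne D hD)) I⟩
  obtain ⟨a, ha, hae⟩ := hτ.holo e x h T g (fun D hD => hT D (hne D hD)) hg I
  have hP : HolV (Cm n) (fun y => ∏ D ∈ T, g D y ^ (K D - K' D)) x :=
    HolV.prod fun D hD => HolV.pow (IsLocalEq.holAt (hg D hD)) _
  refine ⟨fun z => a z * ∏ D ∈ T, g D (e.symm z) ^ (K D - K' D), ha.mul (analyticAt_symm h hP), ?_⟩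
  filter_upwards [hae] with z hz hne0
  have h1 : ∏ D ∈ T, g D (e.symm z) ^ K' D ≠ 0 := by
    refine Finset.prod_ne_zero_iff.2 fun D hD => ?_
    have h2 := Finset.prod_ne_zero_iff.1 hne0 D hD
    by_cases h3 : K' D = 0
    · rw [h3, pow_zero]
      exact one_ne_zero
    · refine pow_ne_zero _ fun h0 => h2 ?_
      rw [h0, zero_pow (hne D h3)]
  rw [← hz h1]
  have h4 : ∏ D ∈ T, g D (e.symm z) ^ K D =
      (∏ D ∈ T, g D (e.symm z) ^ K' D) * ∏ D ∈ T, g D (e.symm z) ^ (K D - K' D) := by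
    rw [← Finset.prod_mul_distrib]
    refine Finset.prod_congr rfl fun D _ => ?_
    rw [← pow_add, Nat.add_sub_cancel' (hle D)]
  rw [h4]
  ring

/-- **the tensor of the power of a pulled back section** -/
theorem tens_pole {j : Z → X} (hj : J.IsBigOpen (Cm n) j) {f : Z → Y}
    {𝒢 : Set (Set Y)} (h𝒢 : IsThin p f 𝒢) {Δ : Set X → ℝ} (hsnc : J.IsSNC (Cm n) Δ)
    {m : ℕ} {K₀ : Set X → ℕ} (hK₀ : ∀ D, (K₀ D : ℝ) ≤ m * Δ D)
    {σ : Y → ℂ} (hpole : ∀ x, PoleAt n p m K₀ 𝒢 j f σ x)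
    {l : ℕ} (hl : 0 < l) {K : Set X → ℕ} (hK : ∀ D, (K D : ℝ) = (m * l : ℕ) * Δ D) :
    ∃ τ : Ten n (m * l * p) X, IsTenP (m * l * p) K τ ∧
      ∀ e z, At e (j z) → f z ∉ ⋃₀ 𝒢 → (∀ D, Δ D ≠ 0 → j z ∉ D) →
        ∀ I, τ e (e (j z)) I = σ (f z) ^ l * tT f (m * l) (fun z => e (j z)) I z := by
  have hs := JB.snc hsnc
  have hKne : ∀ D, K₀ D ≠ 0 → Δ D ≠ 0 := by
    intro D hD h0
    have h1 := hK₀ D
    rw [h0, mul_zero] at h1
    have h2 : (0 : ℝ) < K₀ D := by exact_mod_cast Nat.pos_of_ne_zero hD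
    linarith
  obtain ⟨τ, hτ, hpull⟩ := ten_of_pole hj h𝒢 (hs.finite.subset fun D hD => hKne D hD)
    (fun D hD => hs.prime D (hKne D hD)) hpole hl
  refine ⟨τ, isTenP_mono (fun D => ?_) hτ, fun e z h hz hzD I =>
    hpull e z h hz (fun D hD => hzD D (hKne D hD)) I⟩
  have h1 : ((K₀ D * l : ℕ) : ℝ) ≤ K D := by
    rw [hK D]
    push_cast
    calc (K₀ D : ℝ) * l ≤ (m * Δ D) * l := mul_le_mul_of_nonneg_right (hK₀ D) (Nat.cast_nonneg l)
      _ = m * l * Δ D := by ring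
  exact_mod_cast h1

end Vale.Agent.P281.H498
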