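import Vale.Agent.P281.H498.TL.BrQ
import Vale.Agent.P281.H498.TL.Fin

/-! P281, theorem U: the bridge, for an arbitrary kernel and pulled back sections. -/

open scoped Manifold ContDiff Topology ComplexOrder
open Set Filter Vale.Agent.P281 Vale.Agent.P272.K Vale.Agent.P299
open Vale.Agent.P299.H882 (xi)

noncomputable section

namespace Vale.Agent.P281.H498

open Vale.Agent.P281.H713 Vale.Agent.P281.H713.SA Vale.Agent.P281.H716 Vale.Agent.P281.H713.KD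
open Vale.Agent.P281.H713.TL

/-- **Bridge**, `BridgeT` for an arbitrary kernel `A` -/
theorem bridgeQ (n p M : ℕ) (X Z Y : Type)
    [TopologicalSpace X] [T2Space X] [CompactSpace X] [ConnectedSpace X]
    [ChartedSpace (Cm n) X] [IsManifold 𝓘(ℂ, Cm n) ω X]
    [TopologicalSpace Z] [ChartedSpace (Cm n) Z] [IsManifold 𝓘(ℂ, Cm n) ω Z]
    [TopologicalSpace Y] [T2Space Y] [ConnectedSpace Y]
    [ChartedSpace (Cm p) Y] [IsManifold 𝓘(ℂ, Cm p) ω Y]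
    (χ : D.FormM n X) (hχ : IsKahler χ)
    (j : Z → X) (hj : J.IsBigOpen (Cm n) j) (f : Z → Y) (hf : ContMDiff 𝓘(ℂ, Cm n) 𝓘(ℂ, Cm p) ω f)
    (hsub : ∃ z, Function.Surjective (mfderiv 𝓘(ℂ, Cm n) 𝓘(ℂ, Cm p) f z))
    (𝒢 : Set (Set Y)) (hfin : 𝒢.Finite) (hpr : ∀ G ∈ 𝒢, J.IsPrime (Cm p) G)
    (Δ : Set X → ℝ) (hsnc : J.IsSNC (Cm n) Δ)
    (Dv : Fin M → Set X) (hinj : Function.Injective Dv) (hDv : ∀ D, Δ D ≠ 0 ↔ ∃ i, Dv i = D)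
    (r : Fin M → X → ℝ) (R : Fin M → D.FormM n X) (hR : IsBd Dv r R) (m₀ : ℕ) (hm₀ : 0 < m₀)
    (A : X → Cm n → Prop) (R' : Set X)
    (hcore : ∀ (p' μ : ℕ) (K : Fin M → ℕ) (N₀ N₁ : D.FormM n X → X → ℝ) (u : X → ℝ), m₀ ∣ μ →
      (∀ i, (K i : ℝ) ≤ μ * Δ (Dv i)) → IsDecPair Dv r χ p' μ K N₀ N₁ →
      (∀ g x, IsKahler g → 0 < N₀ g x → 0 < N₁ g x →
        u x = Real.log (N₁ g x) - Real.log (N₀ g x)) →
      ∀ x ∈ R', 0 < N₀ χ x → 0 < N₁ χ x → ∀ v : Cm n, A x v →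
        ∑ i, xi u (chartAt (Cm n) x) (chartAt (Cm n) x x) i * v i = 0)
    (m : ℕ) (K : Set X → ℕ) (hm : 0 < m) (hK : ∀ D, (K D : ℝ) ≤ m * Δ D) (σ₀ σ₁ : Y → ℂ)
    (h₀ : IsPullSection (n := n) (p := p) m K 𝒢 j f σ₀)
    (h₁ : IsPullSection (n := n) (p := p) m K 𝒢 j f σ₁) (z : Z) (hzR : j z ∈ R')
    (hzΔ : ∀ D, Δ D ≠ 0 → j z ∉ D) (hzS : f z ∉ ⋃₀ 𝒢)
    (hsurj : Function.Surjective (dM (Cm n) (Cm p) f z)) (h0 : σ₀ (f z) ≠ 0) (v : Cm n)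
    (hv : A (j z) (dM (Cm n) (Cm n) j z v)) :
    J.dif (Cm n) (fun z => σ₁ (f z) / σ₀ (f z)) z v = 0 :=
  bridge_ker hχ hj hf (thin_of_sub hj hf hsub hfin hpr) hsnc hinj hDv hR hm₀ hcore hm hK
    (isSec_of hpr h₀) (isSec_of hpr h₁) (poleAt_of h₀) (poleAt_of h₁) hzR hzΔ hzS hsurj h0 hv

end Vale.Agent.P281.H498
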