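import Vale.Agent.P281.H498.TL.Core

/-! P281, theorem TL, rows T2 and T3, in local form. -/

open scoped Manifold ContDiff Topology ComplexOrder
open Set Filter Vale.Agent.P272.K

noncomputable section

namespace Vale.Agent.P281.H498

open Vale.Agent.P281 Vale.Agent.P281.MF Vale.Agent.P281.ISO Vale.Agent.P281.H713.SA
open Vale.Agent.P281.H716 Vale.Agent.P299.D Vale.Agent.P281.H787 Vale.Agent.P281.H713.KD
open Vale.Agent.P299.H882 (xi)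

set_option linter.unusedSectionVars false

section sec

variable {p m : ℕ} {Y : Type} [TopologicalSpace Y] [ChartedSpace (Cm p) Y]
  [IsManifold 𝓘(ℂ, Cm p) ω Y] {S : Set Y} {σ σ₀ σ₁ : Y → ℂ}

theorem IsSec.pow (h : IsSec p m S σ) (l : ℕ) : IsSec p (m * l) S (fun y => σ y ^ l) := by
  intro y hy
  obtain ⟨A, hA, he⟩ := h y hy
  refine ⟨fun y => A y ^ l, hA.pow l, ?_⟩
  filter_upwards [he] with z hz
  rw [hz, mul_pow, ← pow_mul]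

theorem IsSec.add (h₀ : IsSec p m S σ₀) (h₁ : IsSec p m S σ₁) (c : ℂ) :
    IsSec p m S (fun y => σ₁ y + c * σ₀ y) := by
  intro y hy
  obtain ⟨A₀, hA₀, he₀⟩ := h₀ y hy
  obtain ⟨A₁, hA₁, he₁⟩ := h₁ y hy
  refine ⟨fun y => A₁ y + c * A₀ y, hA₁.add ((HolV.const c y).mul hA₀), ?_⟩
  filter_upwards [he₀, he₁] with z h2 h3
  rw [h2, h3]
  ring

theorem IsSec.quotient (h₀ : IsSec p m S σ₀) (h₁ : IsSec p m S σ₁) {y : Y} (hy : y ∉ S)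
    (h0 : σ₀ y ≠ 0) : HolV (Cm p) (fun y => σ₁ y / σ₀ y) y ∧ ∀ᶠ z in 𝓝 y, σ₀ z ≠ 0 := by
  obtain ⟨A₀, hA₀, he₀⟩ := h₀ y hy
  obtain ⟨A₁, hA₁, he₁⟩ := h₁ y hy
  have hs : y ∈ (chartAt (Cm p) y).source := mem_chart_source _ _
  have hjac : ∀ᶠ z in 𝓝 y, jac (Cm p) (chartAt (Cm p) y) z ≠ 0 := by
    filter_upwards [(chartAt (Cm p) y).open_source.mem_nhds hs] with z hz
    exact jac_chart_ne_zero hz
  have hA0 : A₀ y ≠ 0 := by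
    intro h
    apply h0
    rw [he₀.self_of_nhds, h, zero_mul]
  constructor
  · refine HolV.congr (HolV.div hA₁ hA₀ hA0) ?_
    filter_upwards [he₀, he₁, hjac] with z h1 h2 h3
    rw [h1, h2, mul_div_mul_right _ _ (pow_ne_zero m h3)]
  · filter_upwards [he₀, hjac, hA₀.continuousAt.eventually_ne hA0] with z h1 h2 h3
    rw [h1]
    exact mul_ne_zero h3 (pow_ne_zero m h2)

end sec

variable {n p M : ℕ} {X Z Y : Type}
  [TopologicalSpace X] [T2Space X] [CompactSpace X] [ConnectedSpace X]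
  [ChartedSpace (Cm n) X] [IsManifold 𝓘(ℂ, Cm n) ω X]
  [TopologicalSpace Z] [ChartedSpace (Cm n) Z] [IsManifold 𝓘(ℂ, Cm n) ω Z]
  [TopologicalSpace Y] [T2Space Y] [ConnectedSpace Y]
  [ChartedSpace (Cm p) Y] [IsManifold 𝓘(ℂ, Cm p) ω Y]

theorem PoleAt.add {m : ℕ} {K : Set X → ℕ} {𝒢 : Set (Set Y)} {j : Z → X}
    (hj : J.IsBigOpen (Cm n) j) {f : Z → Y} {σ₀ σ₁ : Y → ℂ} {x : X}
    (h₀ : PoleAt n p m K 𝒢 j f σ₀ x) (h₁ : PoleAt n p m K 𝒢 j f σ₁ x) (c : ℂ) :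
    PoleAt n p m K 𝒢 j f (fun y => σ₁ y + c * σ₀ y) x := by
  classical
  obtain ⟨T, g, hT, hg, ha⟩ := h₁
  refine ⟨T, g, hT, hg, fun I => ?_⟩
  obtain ⟨a, h1, h2⟩ := ha I
  obtain ⟨Q, h3, h4⟩ := loc_of_pole hj h₀ (AMP.at_chartAt x) hT hg I
  refine ⟨fun y => a y + c * Q y, HolV.add (E := Cm n) h1 ((HolV.const c x).mul h3), ?_⟩
  have h5 : ∀ᶠ y in 𝓝 x, ∀ D ∈ T, IsLocalEq (Cm n) D (g D) y := by
    rw [Filter.eventually_all_finset]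
    exact fun D hD => IsLocalEq.eventually (hg D hD)
  filter_upwards [h2, h4, h5] with y k1 k2 k3 z hz hzG hzD
  have k4 := k1 z hz hzG hzD
  have k5 := k2 z hz (fun h => by
    obtain ⟨G, hG, hzG'⟩ := h
    exact hzG G hG hzG') (fun D hD hyD => by
      refine hzD (Finset.prod_eq_zero (hT D hD) ?_)
      rw [(k3 D (hT D hD)).mem_iff.1 hyD, zero_pow hD])
  rw [← k4, ← k5]
  ring

/-- **row T2**, local form -/
theorem tenPart_pole {χ : FormM n X} (hχ : IsKahler χ)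
    {j : Z → X} (hj : J.IsBigOpen (Cm n) j) {f : Z → Y}
    (hf : ContMDiff 𝓘(ℂ, Cm n) 𝓘(ℂ, Cm p) ω f) {𝒢 : Set (Set Y)} (h𝒢 : IsThin p f 𝒢)
    {Δ : Set X → ℝ} (hsnc : J.IsSNC (Cm n) Δ) {Dv : Fin M → Set X}
    (hinj : Function.Injective Dv) (hDv : ∀ D, Δ D ≠ 0 ↔ ∃ i, Dv i = D)
    {r : Fin M → X → ℝ} {R : Fin M → FormM n X} (hR : IsBd Dv r R)
    {m : ℕ} (hm : 0 < m) {K₀ : Set X → ℕ} (hK₀ : ∀ D, (K₀ D : ℝ) ≤ m * Δ D)
    {σ₀ σ₁ : Y → ℂ} (hsec₀ : IsSec p m (⋃₀ 𝒢) σ₀) (hsec₁ : IsSec p m (⋃₀ 𝒢) σ₁)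
    (hpole₀ : ∀ x, PoleAt n p m K₀ 𝒢 j f σ₀ x) (hpole₁ : ∀ x, PoleAt n p m K₀ 𝒢 j f σ₁ x)
    {l : ℕ} (hl : 0 < l) :
    ∃ (K : Fin M → ℕ) (N₀ N₁ : FormM n X → X → ℝ),
      (∀ i, (K i : ℝ) ≤ (m * l : ℕ) * Δ (Dv i)) ∧
      IsDecPair Dv r χ p (m * l) K N₀ N₁ ∧
      (∀ g x, IsKahler g → 0 < N₀ g x → 0 < N₁ g x →
        Real.log (N₁ g x) - Real.log (N₀ g x) = Real.log (N₁ χ x) - Real.log (N₀ χ x)) ∧
      ∀ z, f z ∉ ⋃₀ 𝒢 → (∀ i, j z ∉ Dv i) →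
        Function.Surjective (mfderiv 𝓘(ℂ, Cm n) 𝓘(ℂ, Cm p) f z) → σ₀ (f z) ≠ 0 → σ₁ (f z) ≠ 0 →
        0 < N₀ χ (j z) ∧ 0 < N₁ χ (j z) ∧ Real.log (N₁ χ (j z)) - Real.log (N₀ χ (j z)) =
          l * (Real.log (‖σ₁ (f z)‖ ^ 2) - Real.log (‖σ₀ (f z)‖ ^ 2)) := by
  have hs := JB.snc hsnc
  have hset : Setup n p j f (⋃₀ 𝒢) Dv := h𝒢.setup hj hf hsnc hDv
  have hDpr : ∀ i, IsPrimeDivisor (Cm n) (Dv i) := fun i => hs.prime _ ((hDv _).2 ⟨i, rfl⟩)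
  have hKne : ∀ D, K₀ D ≠ 0 → Δ D ≠ 0 := by
    intro D hD h0
    have h1 := hK₀ D
    rw [h0, mul_zero] at h1
    have h2 : (0 : ℝ) < K₀ D := by exact_mod_cast Nat.pos_of_ne_zero hD
    linarith
  have hfin : {D | K₀ D ≠ 0}.Finite := hs.finite.subset fun D hD => hKne D hD
  have hpr : ∀ D, K₀ D ≠ 0 → IsPrimeDivisor (Cm n) D := fun D hD => hs.prime D (hKne D hD)
  obtain ⟨τ₀, hτ₀, hpull₀⟩ := ten_of_pole hj h𝒢 hfin hpr hpole₀ hl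
  obtain ⟨τ₁, hτ₁, hpull₁⟩ := ten_of_pole hj h𝒢 hfin hpr hpole₁ hl
  have hK'D : ∀ D, K₀ D * l ≠ 0 → ∃ i, Dv i = D := fun D hD =>
    (hDv D).1 (hKne D (left_ne_zero_of_mul hD))
  have hav : ∀ z, (∀ i, j z ∉ Dv i) → ∀ D, K₀ D ≠ 0 → j z ∉ D := by
    intro z hz D hD
    obtain ⟨i, rfl⟩ := (hDv D).1 (hKne D hD)
    exact hz i
  obtain ⟨K, N₀, N₁, hK, hdec, hq, hval⟩ := ten_core hχ hj hf h𝒢 hinj hset hDpr hR
    (Nat.mul_pos hm hl) hK'D (hsec₀.pow l) (hsec₁.pow l) hτ₀ hτ₁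
    (fun e z h hz hzD I => hpull₀ e z h hz (hav z hzD) I)
    (fun e z h hz hzD I => hpull₁ e z h hz (hav z hzD) I)
  refine ⟨K, N₀, N₁, fun i => ?_, hdec, hq, fun z hz hzD hsurj hz0 hz1 => ?_⟩
  · have h1 : (K i : ℝ) ≤ (K₀ (Dv i) : ℝ) * l := by exact_mod_cast hK i
    push_cast
    calc (K i : ℝ) ≤ (K₀ (Dv i) : ℝ) * l := h1
      _ ≤ (m * Δ (Dv i)) * l := mul_le_mul_of_nonneg_right (hK₀ _) (Nat.cast_nonneg l)
      _ = m * l * Δ (Dv i) := by ring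
  · obtain ⟨h0, h1, h2⟩ := hval z hz hzD hsurj (pow_ne_zero _ hz0) (pow_ne_zero _ hz1)
    refine ⟨h0, h1, ?_⟩
    have h3 : ∀ t : ℂ, Real.log (‖t ^ l‖ ^ 2) = l * Real.log (‖t‖ ^ 2) := by
      intro t
      rw [norm_pow, ← pow_mul, mul_comm l 2, pow_mul, Real.log_pow]
    rw [h2, h3, h3]
    ring

/-- **row T3**, local form, at one point -/
theorem bridge_pole {χ : FormM n X} (hχ : IsKahler χ)
    {j : Z → X} (hj : J.IsBigOpen (Cm n) j) {f : Z → Y}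
    (hf : ContMDiff 𝓘(ℂ, Cm n) 𝓘(ℂ, Cm p) ω f) {𝒢 : Set (Set Y)} (h𝒢 : IsThin p f 𝒢)
    {Δ : Set X → ℝ} (hsnc : J.IsSNC (Cm n) Δ)
    {Dv : Fin M → Set X} (hinj : Function.Injective Dv) (hDv : ∀ D, Δ D ≠ 0 ↔ ∃ i, Dv i = D)
    {r : Fin M → X → ℝ} {R : Fin M → FormM n X} (hR : IsBd Dv r R) {m₀ : ℕ} (hm₀ : 0 < m₀)
    {ι : Type} {P : ι → X → ℂ} {R' : Set X}
    (hcore : ∀ (p' μ : ℕ) (K : Fin M → ℕ) (N₀ N₁ : FormM n X → X → ℝ) (u : X → ℝ), m₀ ∣ μ →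
      (∀ i, (K i : ℝ) ≤ μ * Δ (Dv i)) → IsDecPair Dv r χ p' μ K N₀ N₁ →
      (∀ g x, IsKahler g → 0 < N₀ g x → 0 < N₁ g x →
        u x = Real.log (N₁ g x) - Real.log (N₀ g x)) →
      ∀ x ∈ R', 0 < N₀ χ x → 0 < N₁ χ x → ∀ e, At e x → ∀ a₀, P a₀ x ≠ 0 → ∀ v : Cm n,
        (∀ a, fderiv ℂ (fun z => P a (e.symm z) / P a₀ (e.symm z)) (e x) v = 0) →
        ∑ i, xi u e (e x) i * v i = 0)
    {m : ℕ} (hm : 0 < m) {K₀ : Set X → ℕ} (hK₀ : ∀ D, (K₀ D : ℝ) ≤ m * Δ D)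
    {σ₀ σ₁ : Y → ℂ} (hsec₀ : IsSec p m (⋃₀ 𝒢) σ₀) (hsec₁ : IsSec p m (⋃₀ 𝒢) σ₁)
    (hpole₀ : ∀ x, PoleAt n p m K₀ 𝒢 j f σ₀ x) (hpole₁ : ∀ x, PoleAt n p m K₀ 𝒢 j f σ₁ x)
    {z : Z} (hzR : j z ∈ R') (hzΔ : ∀ D, Δ D ≠ 0 → j z ∉ D) (hzS : f z ∉ ⋃₀ 𝒢)
    (hsurj : Function.Surjective (dM (Cm n) (Cm p) f z)) (h0 : σ₀ (f z) ≠ 0) {a₀ : ι}
    (ha₀ : P a₀ (j z) ≠ 0) {v : Cm n}
    (hv : ∀ a, dif (Cm n) (fun w => P a w / P a₀ w) (j z) (dM (Cm n) (Cm n) j z v) = 0) :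
    dif (Cm n) (fun z => σ₁ (f z) / σ₀ (f z)) z v = 0 := by
  have hs : Setup n p j f (⋃₀ 𝒢) Dv := h𝒢.setup hj hf hsnc hDv
  obtain ⟨c, hc⟩ : ∃ c : ℂ, σ₁ (f z) + c * σ₀ (f z) ≠ 0 := by
    by_cases h1 : σ₁ (f z) = 0
    · exact ⟨1, by rw [h1, zero_add, one_mul]; exact h0⟩
    · exact ⟨0, by rw [zero_mul, add_zero]; exact h1⟩
  set s₁ : Y → ℂ := fun y => σ₁ y + c * σ₀ y with hs₁
  obtain ⟨K, N₀, N₁, hK, hdec, hq, hval⟩ := tenPart_pole hχ hj hf h𝒢 hsnc hinj hDv hR hm hK₀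
    hsec₀ (hsec₀.add hsec₁ c) hpole₀ (fun x => (hpole₀ x).add hj (hpole₁ x) c) hm₀
  set u : X → ℝ := fun x => Real.log (N₁ χ x) - Real.log (N₀ χ x) with hu
  have hzD : ∀ i, j z ∉ Dv i := fun i => hzΔ _ ((hDv _).2 ⟨i, rfl⟩)
  obtain ⟨hQ, hQ0⟩ := hsec₀.quotient hsec₁ hzS h0
  set Q : Z → ℂ := fun w => σ₁ (f w) / σ₀ (f w) with hQd
  have hQh : HolV (Cm n) Q z := HolV.comp (h := fun y => σ₁ y / σ₀ y) hQ (hs.hf z)
  set h : Z → ℂ := fun w => Q w + c with hh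
  have hhh : HolV (Cm n) h z := hQh.add (HolV.const c z)
  have hhz : h z ≠ 0 := by
    have h1 : h z * σ₀ (f z) = σ₁ (f z) + c * σ₀ (f z) := by
      simp only [hh, hQd]
      field_simp
    intro h2
    rw [h2, zero_mul] at h1
    exact hc h1.symm
  have hdh : dV (Cm n) h z = dV (Cm n) Q z := by
    have h1 : ContDiffAt ℂ ω (fun t : ℂ => t + c) (Q z) := contDiffAt_id.add contDiffAt_const
    have h2 := dV_comp_contDiff (G := fun t : ℂ => t + c) (v := Q) h1 hQh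
    have h3 : fderiv ℂ (fun t : ℂ => t + c) (Q z) = ContinuousLinearMap.id ℂ ℂ := by
      rw [fderiv_add_const]
      exact fderiv_fun_id
    rw [h3, ContinuousLinearMap.id_comp] at h2
    exact h2
  -- the function `u ∘ j`
  have hfc : ContinuousAt f z := (hs.hf z).continuousAt
  have hjc : ContinuousAt j z := (hs.hj z).continuousAt
  have hev : ∀ᶠ w in 𝓝 z, u (j w) = m₀ * Real.log (‖h w‖ ^ 2) := by
    filter_upwards [hfc.eventually (hs.closedS.isOpen_compl.mem_nhds hzS),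
      eventually_all.2 fun i => hjc.eventually ((hs.closedD i).isOpen_compl.mem_nhds (hzD i)),
      surj_open hs hsurj, hfc.eventually hQ0, hhh.continuousAt.eventually_ne hhz] with
      w k1 k2 k3 k4 k5
    have e2 : s₁ (f w) = σ₀ (f w) * h w := by
      simp only [hs₁, hh, hQd]
      field_simp
    have k7 : s₁ (f w) ≠ 0 := by
      rw [e2]
      exact mul_ne_zero k4 k5
    obtain ⟨-, -, k8⟩ := hval w k1 k2 k3 k4 k7
    show Real.log (N₁ χ (j w)) - Real.log (N₀ χ (j w)) = _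
    have k9 : σ₁ (f w) + c * σ₀ (f w) = σ₀ (f w) * h w := e2
    rw [k8, k9, norm_mul, mul_pow, Real.log_mul
      (pow_ne_zero _ (norm_ne_zero_iff.2 k4))
      (pow_ne_zero _ (norm_ne_zero_iff.2 k5))]
    ring
  have hpos : 0 < N₀ χ (j z) ∧ 0 < N₁ χ (j z) := by
    obtain ⟨k8, k9, -⟩ := hval z hzS hzD hsurj h0 hc
    exact ⟨k8, k9⟩
  set e : Chart n X := chartAt (Cm n) (j z) with he
  have hAt : At e (j z) := AMP.at_chartAt (j z)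
  set H : Cm n → ℂ := fun y => h (jinv j z (e.symm y)) with hH
  have hHa : AnalyticAt ℂ H (e (j z)) := analytic_jinv hs hAt hhh
  have hjz : jinv j z (j z) = z := jinv_j hs.emb.injective z z
  have hHz : H (e (j z)) = h z := by
    simp only [hH]
    rw [e.left_inv hAt.2, hjz]
  have hue : ∀ᶠ y in 𝓝 (e (j z)), u (e.symm y) = m₀ * Real.log (‖H y‖ ^ 2) := by
    filter_upwards [ev_jinv hs hAt hev] with y hy
    obtain ⟨w, k1, k2, k3, k4, k5⟩ := hy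
    simp only [hH]
    rw [k4, k2]
    exact k1
  set v' : Cm n := dV (Cm n) (fun w => e (j w)) z v with hv'
  have hv'' : v' = dM (Cm n) (Cm n) j z v := by
    rw [hv', dV_comp (h := (e : X → Cm n)) (holV_at hAt) (hs.hj z), dV_chartAt]
    rfl
  have h1 := hcore p (m * m₀) K N₀ N₁ u (dvd_mul_left _ _) hK hdec
    (fun g x hg k1 k2 => (hq g x hg k1 k2).symm) (j z) hzR hpos.1 hpos.2 e hAt a₀ ha₀ v'
    (fun a => by
      have h2 := hv a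
      rw [dif_eq_fderiv] at h2
      rw [hv'']
      exact h2)
  rw [xi_logH_sum hHa (by rw [hHz]; exact hhz) hue] at h1
  have h2 : fderiv ℂ H (e (j z)) v' = 0 := by
    rcases mul_eq_zero.1 h1 with h3 | h3
    · exfalso
      rcases mul_eq_zero.1 h3 with h4 | h4
      · have : (m₀ : ℂ) ≠ 0 := by exact_mod_cast hm₀.ne'
        exact this (by simpa using h4)
      · exact inv_ne_zero (by rw [hHz]; exact hhz) h4
    · exact h3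
  have h3 : dV (Cm n) h z = (fderiv ℂ H (e (j z))).comp (dV (Cm n) (fun w => e (j w)) z) := by
    rw [← dV_comp_contDiff (G := H) (v := fun w => e (j w)) hHa.contDiffAt (holV_ej hs.hj hAt)]
    refine dV_congr ?_
    filter_upwards [hjc.eventually (e.open_source.mem_nhds hAt.2)] with w hw
    simp only [hH]
    rw [e.left_inv hw, jinv_j hs.emb.injective]
  show dV (Cm n) Q z v = 0
  rw [← hdh, h3]
  exact h2

end Vale.Agent.P281.H498
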