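import Vale.Agent.P281.H498.TL.Br

/-! P281, theorem U: the bridge, for an arbitrary kernel. -/

open scoped Manifold ContDiff Topology ComplexOrder
open Set Filter Vale.Agent.P272.K

noncomputable section

namespace Vale.Agent.P281.H498

open Vale.Agent.P281 Vale.Agent.P281.MF Vale.Agent.P281.ISO Vale.Agent.P281.H713.SA
open Vale.Agent.P281.H716 Vale.Agent.P299.D Vale.Agent.P281.H787 Vale.Agent.P281.H713.KD
open Vale.Agent.P299.H882 (xi)

set_option linter.unusedSectionVars false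

variable {n p M : ℕ} {X Z Y : Type}
  [TopologicalSpace X] [T2Space X] [CompactSpace X] [ConnectedSpace X]
  [ChartedSpace (Cm n) X] [IsManifold 𝓘(ℂ, Cm n) ω X]
  [TopologicalSpace Z] [ChartedSpace (Cm n) Z] [IsManifold 𝓘(ℂ, Cm n) ω Z]
  [TopologicalSpace Y] [T2Space Y] [ConnectedSpace Y]
  [ChartedSpace (Cm p) Y] [IsManifold 𝓘(ℂ, Cm p) ω Y]

/-- **the bridge**, for an arbitrary kernel `A`, at one point -/
theorem bridge_ker {χ : FormM n X} (hχ : IsKahler χ)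
    {j : Z → X} (hj : J.IsBigOpen (Cm n) j) {f : Z → Y}
    (hf : ContMDiff 𝓘(ℂ, Cm n) 𝓘(ℂ, Cm p) ω f) {𝒢 : Set (Set Y)} (h𝒢 : IsThin p f 𝒢)
    {Δ : Set X → ℝ} (hsnc : J.IsSNC (Cm n) Δ)
    {Dv : Fin M → Set X} (hinj : Function.Injective Dv) (hDv : ∀ D, Δ D ≠ 0 ↔ ∃ i, Dv i = D)
    {r : Fin M → X → ℝ} {R : Fin M → FormM n X} (hR : IsBd Dv r R) {m₀ : ℕ} (hm₀ : 0 < m₀)
    {A : X → Cm n → Prop} {R' : Set X}
    (hcore : ∀ (p' μ : ℕ) (K : Fin M → ℕ) (N₀ N₁ : FormM n X → X → ℝ) (u : X → ℝ), m₀ ∣ μ →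
      (∀ i, (K i : ℝ) ≤ μ * Δ (Dv i)) → IsDecPair Dv r χ p' μ K N₀ N₁ →
      (∀ g x, IsKahler g → 0 < N₀ g x → 0 < N₁ g x →
        u x = Real.log (N₁ g x) - Real.log (N₀ g x)) →
      ∀ x ∈ R', 0 < N₀ χ x → 0 < N₁ χ x → ∀ v : Cm n, A x v →
        ∑ i, xi u (chartAt (Cm n) x) (chartAt (Cm n) x x) i * v i = 0)
    {m : ℕ} (hm : 0 < m) {K₀ : Set X → ℕ} (hK₀ : ∀ D, (K₀ D : ℝ) ≤ m * Δ D)
    {σ₀ σ₁ : Y → ℂ} (hsec₀ : IsSec p m (⋃₀ 𝒢) σ₀) (hsec₁ : IsSec p m (⋃₀ 𝒢) σ₁)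
    (hpole₀ : ∀ x, PoleAt n p m K₀ 𝒢 j f σ₀ x) (hpole₁ : ∀ x, PoleAt n p m K₀ 𝒢 j f σ₁ x)
    {z : Z} (hzR : j z ∈ R') (hzΔ : ∀ D, Δ D ≠ 0 → j z ∉ D) (hzS : f z ∉ ⋃₀ 𝒢)
    (hsurj : Function.Surjective (dM (Cm n) (Cm p) f z)) (h0 : σ₀ (f z) ≠ 0) {v : Cm n}
    (hv : A (j z) (dM (Cm n) (Cm n) j z v)) :
    dif (Cm n) (fun z => σ₁ (f z) / σ₀ (f z)) z v = 0 := by
  have hs : Setup n p j f (⋃₀ 𝒢) Dv := h𝒢.setup hj hf hsnc hDv
  obtain ⟨c, hc⟩ : ∃ c : ℂ, σ₁ (f z) + c * σ₀ (f z) ≠ 0 := by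
    by_cases h1 : σ₁ (f z) = 0
    · exact ⟨1, by rw [h1, zero_add, one_mul]; exact h0⟩
    · exact ⟨0, by rw [zero_mul, add_zero]; exact h1⟩
  set s₁ : Y → ℂ := fun y => σ₁ y + c * σ₀ y with hs₁
  obtain ⟨K, N₀, N₁, hK, hdec, hq, hval⟩ := tenPart_pole hχ hj hf h𝒢 hsnc hinj hDv hR hm hK₀
    hsec₀ (hsec₀.add hsec₁ c) hpole₀ (fun x => (hpole₀ x).add hj (hpole₁ x) c) hm₀
  set u : X → ℝ := fun x => Real.log (N₁ χ x) - Real.log (N₀ χ x) with hu
  have hzD : ∀ i, j z ∉ Dv i := fun i => hzΔ _ ((hDv _).2 ⟨i, rfl⟩)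
  obtain ⟨hQ, hQ0⟩ := hsec₀.quotient hsec₁ hzS h0
  set Q : Z → ℂ := fun w => σ₁ (f w) / σ₀ (f w) with hQd
  have hQh : HolV (Cm n) Q z := HolV.comp (h := fun y => σ₁ y / σ₀ y) hQ (hs.hf z)
  set h : Z → ℂ := fun w => Q w + c with hh
  have hhh : HolV (Cm n) h z := hQh.add (HolV.const c z)
  have hhz : h z ≠ 0 := by
    have h1 : h z * σ₀ (f z) = σ₁ (f z) + c * σ₀ (f z) := by
      simp only [hh, hQd]
      field_simp
    intro h2
    rw [h2, zero_mul] at h1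
    exact hc h1.symm
  have hdh : dV (Cm n) h z = dV (Cm n) Q z := by
    have h1 : ContDiffAt ℂ ω (fun t : ℂ => t + c) (Q z) := contDiffAt_id.add contDiffAt_const
    have h2 := dV_comp_contDiff (G := fun t : ℂ => t + c) (v := Q) h1 hQh
    have h3 : fderiv ℂ (fun t : ℂ => t + c) (Q z) = ContinuousLinearMap.id ℂ ℂ := by
      rw [fderiv_add_const]
      exact fderiv_fun_id
    rw [h3, ContinuousLinearMap.id_comp] at h2
    exact h2
  -- the function `u ∘ j`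
  have hfc : ContinuousAt f z := (hs.hf z).continuousAt
  have hjc : ContinuousAt j z := (hs.hj z).continuousAt
  have hev : ∀ᶠ w in 𝓝 z, u (j w) = m₀ * Real.log (‖h w‖ ^ 2) := by
    filter_upwards [hfc.eventually (hs.closedS.isOpen_compl.mem_nhds hzS),
      eventually_all.2 fun i => hjc.eventually ((hs.closedD i).isOpen_compl.mem_nhds (hzD i)),
      surj_open hs hsurj, hfc.eventually hQ0, hhh.continuousAt.eventually_ne hhz] with
      w k1 k2 k3 k4 k5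
    have e2 : s₁ (f w) = σ₀ (f w) * h w := by
      simp only [hs₁, hh, hQd]
      field_simp
    have k7 : s₁ (f w) ≠ 0 := by
      rw [e2]
      exact mul_ne_zero k4 k5
    obtain ⟨-, -, k8⟩ := hval w k1 k2 k3 k4 k7
    show Real.log (N₁ χ (j w)) - Real.log (N₀ χ (j w)) = _
    have k9 : σ₁ (f w) + c * σ₀ (f w) = σ₀ (f w) * h w := e2
    rw [k8, k9, norm_mul, mul_pow, Real.log_mul
      (pow_ne_zero _ (norm_ne_zero_iff.2 k4))
      (pow_ne_zero _ (norm_ne_zero_iff.2 k5))]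
    ring
  have hpos : 0 < N₀ χ (j z) ∧ 0 < N₁ χ (j z) := by
    obtain ⟨k8, k9, -⟩ := hval z hzS hzD hsurj h0 hc
    exact ⟨k8, k9⟩
  set e : Chart n X := chartAt (Cm n) (j z) with he
  have hAt : At e (j z) := AMP.at_chartAt (j z)
  set H : Cm n → ℂ := fun y => h (jinv j z (e.symm y)) with hH
  have hHa : AnalyticAt ℂ H (e (j z)) := analytic_jinv hs hAt hhh
  have hjz : jinv j z (j z) = z := jinv_j hs.emb.injective z z
  have hHz : H (e (j z)) = h z := by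
    simp only [hH]
    rw [e.left_inv hAt.2, hjz]
  have hue : ∀ᶠ y in 𝓝 (e (j z)), u (e.symm y) = m₀ * Real.log (‖H y‖ ^ 2) := by
    filter_upwards [ev_jinv hs hAt hev] with y hy
    obtain ⟨w, k1, k2, k3, k4, k5⟩ := hy
    simp only [hH]
    rw [k4, k2]
    exact k1
  set v' : Cm n := dV (Cm n) (fun w => e (j w)) z v with hv'
  have hv'' : v' = dM (Cm n) (Cm n) j z v := by
    rw [hv', dV_comp (h := (e : X → Cm n)) (holV_at hAt) (hs.hj z), dV_chartAt]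
    rfl
  have h1 := hcore p (m * m₀) K N₀ N₁ u (dvd_mul_left _ _) hK hdec
    (fun g x hg k1 k2 => (hq g x hg k1 k2).symm) (j z) hzR hpos.1 hpos.2 v' (by rw [hv'']; exact hv)
  rw [xi_logH_sum hHa (by rw [hHz]; exact hhz) hue] at h1
  have h2 : fderiv ℂ H (e (j z)) v' = 0 := by
    rcases mul_eq_zero.1 h1 with h3 | h3
    · exfalso
      rcases mul_eq_zero.1 h3 with h4 | h4
      · have : (m₀ : ℂ) ≠ 0 := by exact_mod_cast hm₀.ne'
        exact this (by simpa using h4)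
      · exact inv_ne_zero (by rw [hHz]; exact hhz) h4
    · exact h3
  have h3 : dV (Cm n) h z = (fderiv ℂ H (e (j z))).comp (dV (Cm n) (fun w => e (j w)) z) := by
    rw [← dV_comp_contDiff (G := H) (v := fun w => e (j w)) hHa.contDiffAt (holV_ej hs.hj hAt)]
    refine dV_congr ?_
    filter_upwards [hjc.eventually (e.open_source.mem_nhds hAt.2)] with w hw
    simp only [hH]
    rw [e.left_inv hw, jinv_j hs.emb.injective]
  show dV (Cm n) Q z v = 0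
  rw [← hdh, h3]
  exact h2

end Vale.Agent.P281.H498
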