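import Vale.Agent.P281.H498.TL.Pull

/-! P281, theorem TL, row T2: the norms of two pulled back tensors. -/

open scoped Manifold ContDiff Topology ComplexOrder
open Set Filter Vale.Agent.P281.J Vale.Agent.P272.K Vale.Agent.P272.K.AMP Vale.Agent.P299
open Vale.Agent.P299.H882 (J xi qf)
open Vale.Agent.P272.K.INT (IsClosedForm)

noncomputable section

namespace Vale.Agent.P281.H498

open Vale.Agent.P281 Vale.Agent.P281.MF Vale.Agent.P281.ISO Vale.Agent.P281.H713.SA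
open Vale.Agent.P281.H716 Vale.Agent.P299.D Vale.Agent.P281.H787 Vale.Agent.P281.H713.KD

variable {n p M : ℕ} {X Z Y : Type}
  [TopologicalSpace X] [T2Space X] [CompactSpace X] [ConnectedSpace X]
  [ChartedSpace (Cm n) X] [IsManifold 𝓘(ℂ, Cm n) ω X]
  [TopologicalSpace Z] [ChartedSpace (Cm n) Z] [IsManifold 𝓘(ℂ, Cm n) ω Z]
  [TopologicalSpace Y] [T2Space Y] [ConnectedSpace Y]
  [ChartedSpace (Cm p) Y] [IsManifold 𝓘(ℂ, Cm p) ω Y]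

/-- **the norms of two pulled back tensors** -/
theorem ten_core {χ : FormM n X} (hχ : IsKahler χ)
    {j : Z → X} (hj : IsBigOpen (Cm n) j) {f : Z → Y} (hf : ContMDiff 𝓘(ℂ, Cm n) 𝓘(ℂ, Cm p) ω f)
    {𝒢 : Set (Set Y)} (h𝒢 : IsThin p f 𝒢)
    {Dv : Fin M → Set X} (hinj : Function.Injective Dv) (hset : Setup n p j f (⋃₀ 𝒢) Dv)
    (hDpr : ∀ i, IsPrimeDivisor (Cm n) (Dv i))
    {r : Fin M → X → ℝ} {R : Fin M → FormM n X} (hR : IsBd Dv r R)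
    {μ : ℕ} (hμ0 : 0 < μ) {K' : Set X → ℕ} (hK'D : ∀ D, K' D ≠ 0 → ∃ i, Dv i = D)
    {s₀ s₁ : Y → ℂ} (hsec₀ : IsSec p μ (⋃₀ 𝒢) s₀) (hsec₁ : IsSec p μ (⋃₀ 𝒢) s₁)
    {τ₀ τ₁ : Ten n (μ * p) X} (hτ₀ : IsTenP (μ * p) K' τ₀) (hτ₁ : IsTenP (μ * p) K' τ₁)
    (hp₀ : IsPull p μ j f (⋃₀ 𝒢) Dv s₀ τ₀) (hp₁ : IsPull p μ j f (⋃₀ 𝒢) Dv s₁ τ₁) :
    ∃ (K : Fin M → ℕ) (N₀ N₁ : FormM n X → X → ℝ), (∀ i, K i ≤ K' (Dv i)) ∧
      IsDecPair Dv r χ p μ K N₀ N₁ ∧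
      (∀ g x, IsKahler g → 0 < N₀ g x → 0 < N₁ g x →
        Real.log (N₁ g x) - Real.log (N₀ g x) = Real.log (N₁ χ x) - Real.log (N₀ χ x)) ∧
      ∀ z, f z ∉ ⋃₀ 𝒢 → (∀ i, j z ∉ Dv i) →
        Function.Surjective (mfderiv 𝓘(ℂ, Cm n) 𝓘(ℂ, Cm p) f z) → s₀ (f z) ≠ 0 → s₁ (f z) ≠ 0 →
        0 < N₀ χ (j z) ∧ 0 < N₁ χ (j z) ∧ Real.log (N₁ χ (j z)) - Real.log (N₀ χ (j z)) =
          Real.log (‖s₁ (f z)‖ ^ 2) - Real.log (‖s₀ (f z)‖ ^ 2) := by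
  classical
  have norm := H787.KD.normPart
  have gram := gramPart
  have exact := H787.KD.exactPart
  set S : Set Y := ⋃₀ 𝒢 with hS
  have hdD := hset.denseD
  obtain ⟨K, hKle, hT₀, hT₁, hex⟩ := exact n (μ * p) M X Dv hinj hDpr
    (fun e x hx => by
      obtain ⟨g, -, hg, -⟩ := eqs_exist hR hx
      exact ⟨g, hg⟩) (fun i => K' (Dv i)) τ₀ τ₁ (isTenK_of hinj hK'D hτ₀)
    (isTenK_of hinj hK'D hτ₁)
  obtain ⟨N₀, N₁, hN₀, hN₁, hhol⟩ := norm n (μ * p) M X Dv r R hR K τ₀ τ₁ hT₀ hT₁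
    (((p.factorial : ℝ) ^ μ)⁻¹) (by positivity)
  have hover : ∀ i, K i ≠ 0 → ∀ z, j z ∈ Dv i → f z ∈ S := fun i hi z hz =>
    over_S hset hR hT₀ hT₁ hsec₀ hsec₁ hp₀ hp₁ i hi (hex i hi) hz
  -- divisibility
  have hclB : IsClosed (⋃ i, Dv i) := isClosed_iUnion_of_finite fun i => (hDpr i).1
  have hdB : Dense (⋃ i, Dv i)ᶜ := by
    have h1 : (⋃ i, Dv i)ᶜ = {x : X | ∀ i, x ∉ Dv i} := by
      ext x
      simp
    rw [h1]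
    exact hdD
  have hkeyAt : ∀ {s : Y → ℂ} {τ : Ten n (μ * p) X}, IsPull p μ j f S Dv s τ →
      KeyAt Dv K τ := by
    intro s τ hp e x g a h hg ha i hi I t c
    refine keyThin h𝒢 hj hf (D := Dv i) (hover i hi) (B := ⋃ i, Dv i) hclB hdB
      h (hg.1 i) (hg.2 i) ha.1 ?_ I t c
    filter_upwards [ev_of_chart h ha.2, hg.ev h, e.open_source.mem_nhds h.2] with y h1 h2 h3 z hzy
      hzS hzB
    subst hzy
    have hzD : ∀ i, j z ∉ Dv i := fun i hi => hzB (mem_iUnion_of_mem i hi)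
    have h4 := (h2.ne hzD).self_of_nhds
    refine ⟨s (f z) * ∏ i, g i (e (j z)) ^ K i, fun I => ?_⟩
    rw [← h1 h4 I, hp e z ⟨h.1, h3⟩ hzS hzD I]
    ring
  have hkey₀ := hkeyAt hp₀
  have hkey₁ := hkeyAt hp₁
  refine ⟨K, N₀, N₁, hKle, ⟨?_, ?_, ?_, hhol χ hχ, ?_, ?_⟩, ?_, ?_⟩
  · exact fun g hg => ⟨hN₀.smooth g hg, hN₁.smooth g hg⟩
  · exact fun g x hg => ⟨hN₀.nonneg g x hg, hN₁.nonneg g x hg⟩
  · intro G x hG
    have h : At (chartAt (Cm n) x : Chart n X) x := AMP.at_chartAt x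
    obtain ⟨g, ψ, hg, hψ⟩ := eqs_exist hR h
    obtain ⟨a₀, ha₀⟩ := hT₀.num _ x h g hg
    obtain ⟨a₁, ha₁⟩ := hT₁.num _ x h g hg
    exact ⟨(norm_pos hN₀ hG h hg ha₀).trans (norm_pos hN₀ hχ h hg ha₀).symm,
      (norm_pos hN₁ hG h hg ha₁).trans (norm_pos hN₁ hχ h hg ha₁).symm⟩
  · intro i hi x hx hcon
    have h : At (chartAt (Cm n) x : Chart n X) x := AMP.at_chartAt x
    obtain ⟨g, ψ, hg, hψ⟩ := eqs_exist hR h
    obtain ⟨a₀, ha₀⟩ := hT₀.num _ x h g hg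
    obtain ⟨a₁, ha₁⟩ := hT₁.num _ x h g hg
    refine hex i hi _ x h hx g a₀ a₁ hg ha₀ ha₁ ?_
    filter_upwards [hcon, hg.ev h, ha₀.ev h, ha₁.ev h,
      (chartAt (Cm n) x).open_source.mem_nhds h.2] with y h1 h2 h3 h4 h5 hy
    have h6 := h1 hy
    have h7 := hN₀.nonneg χ y hχ
    have h8 := hN₁.nonneg χ y hχ
    have hy' : At (chartAt (Cm n) x : Chart n X) y := ⟨h.1, h5⟩
    exact ⟨(hN₀.zero χ _ y g a₀ hχ hy' h2 h3).1 (by linarith),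
      (hN₁.zero χ _ y g a₁ hχ hy' h2 h4).1 (by linarith)⟩
  · refine ⟨{x | (∃ z, j z = x ∧ f z ∉ S) ∧ ∀ i, x ∉ Dv i}, hset.dense, fun a ha => ?_⟩
    obtain ⟨C, hC⟩ := bound_all hset hR hχ hT₀ hT₁ hsec₀ hsec₁ hp₀ hp₁ hkey₀ hkey₁ ⟨0, hμ0⟩
      hN₀ hN₁ ha
    refine ⟨C, ?_⟩
    rintro x ⟨⟨z, rfl, hz⟩, hzD⟩
    obtain ⟨e, h, hbd⟩ := hC (j z)
    obtain ⟨C₀, hC₀h, -, hC₀⟩ := exists_coef hset hsec₀ hz
    obtain ⟨C₁, hC₁h, -, hC₁⟩ := exists_coef hset hsec₁ hz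
    refine ⟨fun i => r_pos hR (hzD i), e, bm n p j f e z, fun y => C₀ (jinv j z (e.symm y)),
      fun y => C₁ (jinv j z (e.symm y)), h, fun a l => bm_analytic hset h a l,
      analytic_jinv hset h hC₀h, analytic_jinv hset h hC₁h, fun G hG => ?_, fun k1 i hi => ?_⟩
    · filter_upwards [norm_form gram hset hR hT₀ hp₀ hN₀ hC₀ hz hzD h hG,
        norm_form gram hset hR hT₁ hp₁ hN₁ hC₁ hz hzD h hG] with y h1 h2 using ⟨h1, h2⟩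
    · exact hbd k1 z rfl hz hzD i hi
  · intro G x hG h0 h1
    have hq := norm_quot gram hset hR hT₀ hT₁ hsec₀ hsec₁ hp₀ hp₁ hN₀ hN₁ hχ hG x
    have h : At (chartAt (Cm n) x : Chart n X) x := AMP.at_chartAt x
    obtain ⟨g, ψ, hg, hψ⟩ := eqs_exist hR h
    obtain ⟨a₀, ha₀⟩ := hT₀.num _ x h g hg
    obtain ⟨a₁, ha₁⟩ := hT₁.num _ x h g hg
    have h2 : 0 < N₀ χ x := (norm_pos hN₀ hχ h hg ha₀).2 ((norm_pos hN₀ hG h hg ha₀).1 h0)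
    have h3 : 0 < N₁ χ x := (norm_pos hN₁ hχ h hg ha₁).2 ((norm_pos hN₁ hG h hg ha₁).1 h1)
    have h4 := congrArg Real.log hq
    rw [Real.log_mul h1.ne' h2.ne', Real.log_mul h3.ne' h0.ne'] at h4
    linarith
  · intro z hz hzD hsurj hs0 hs1
    have h0 := norm_pos_good hset hR hT₀ hp₀ hN₀ hχ hz hzD hsurj hs0
    have h1 := norm_pos_good hset hR hT₁ hp₁ hN₁ hχ hz hzD hsurj hs1
    exact ⟨h0, h1, log_good gram hset hR hT₀ hT₁ hsec₀ hsec₁ hp₀ hp₁ hN₀ hN₁ hχ hz hzD h0 h1⟩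

end Vale.Agent.P281.H498
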