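import Vale.Agent.P281.H498.TL.Ten

/-! P281, theorem TL, row T2: the tensors given by the powers of a pulled back section. -/

open scoped Manifold ContDiff Topology ComplexOrder
open Set Filter Vale.Agent.P272.K

noncomputable section

namespace Vale.Agent.P281.H498

open Vale.Agent.P281 Vale.Agent.P281.MF Vale.Agent.P281.ISO Vale.Agent.P281.H713.SA
open Vale.Agent.P281.H716 Vale.Agent.P299.D Vale.Agent.P281.H787 Vale.Agent.P281.H713.KD

set_option linter.unusedSectionVars false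

/-- the blocks of the multi-indices -/
def sub {m l p n : ℕ} (I : Fin (m * l * p) → Fin n) (s : Fin l) : Fin (m * p) → Fin n :=
  fun t => I (finProdFinEquiv (finProdFinEquiv ((finProdFinEquiv.symm t).1, s),
    (finProdFinEquiv.symm t).2))

theorem tq_sub {m l p n : ℕ} (A : Cm n →L[ℂ] Cm p) (I : Fin (m * l * p) → Fin n) :
    tq (m * l) A I = ∏ s : Fin l, tq m A (sub I s) := by
  unfold tq
  rw [← Equiv.prod_comp finProdFinEquiv, Fintype.prod_prod_type, Finset.prod_comm]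
  refine Finset.prod_congr rfl fun s _ => Finset.prod_congr rfl fun r _ => ?_
  simp [sub]

variable {n p M : ℕ} {X Z Y : Type}
  [TopologicalSpace X] [T2Space X] [ChartedSpace (Cm n) X] [IsManifold 𝓘(ℂ, Cm n) ω X]
  [TopologicalSpace Z] [ChartedSpace (Cm n) Z] [IsManifold 𝓘(ℂ, Cm n) ω Z]
  [TopologicalSpace Y] [ChartedSpace (Cm p) Y] [IsManifold 𝓘(ℂ, Cm p) ω Y]

/-- holomorphy of the coefficients of the change of charts -/
theorem holV_jacM {e e' : Chart n X} {x : X} (h : At e x) (h' : At e' x) (q i : Fin n) :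
    HolV (Cm n) (fun y => jacM e e' y q i) x := by
  have h1 : HolV (Cm n) (fun y => (fun z => jacM e e' (e.symm z) q i) (e y)) x :=
    HolV.comp_contDiff (G := fun z => jacM e e' (e.symm z) q i) (jacM_holo h h' q i) (holV_at h)
  refine h1.congr ?_
  filter_upwards [e.open_source.mem_nhds h.2] with y hy
  simp only [e.left_inv hy]

/-- the pull-back of `σ` has poles `≤ K` at `x` -/
def PoleAt (n p m : ℕ) {X Z Y : Type} [TopologicalSpace X] [ChartedSpace (Cm n) X]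
    [TopologicalSpace Z] [ChartedSpace (Cm n) Z] [TopologicalSpace Y] [ChartedSpace (Cm p) Y]
    (K : Set X → ℕ) (𝒢 : Set (Set Y)) (j : Z → X) (f : Z → Y) (σ : Y → ℂ) (x : X) : Prop :=
  ∃ (T : Finset (Set X)) (g : Set X → X → ℂ), (∀ D, K D ≠ 0 → D ∈ T) ∧
    (∀ D ∈ T, IsLocalEq (Cm n) D (g D) x) ∧ ∀ I : Fin (m * p) → Fin n, ∃ a : X → ℂ,
      HolAt (Cm n) a x ∧ ∀ᶠ y in 𝓝 x, ∀ z, j z = y → (∀ G ∈ 𝒢, f z ∉ G) →
        ∏ D ∈ T, g D y ^ K D ≠ 0 →
          σ (f z) * tT f m (fun w => (chartAt (Cm n) x : Chart n X) (j w)) I z *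
            ∏ D ∈ T, g D y ^ K D = a y

/-- the pole condition, in all the charts and for all the local equations -/
theorem loc_of_pole {m : ℕ} {K : Set X → ℕ} {𝒢 : Set (Set Y)} {j : Z → X}
    (hj : J.IsBigOpen (Cm n) j) {f : Z → Y} {σ : Y → ℂ} {x : X}
    (hpole : PoleAt n p m K 𝒢 j f σ x) {e : Chart n X} (h : At e x) {T : Finset (Set X)}
    {g : Set X → X → ℂ} (hT : ∀ D, K D ≠ 0 → D ∈ T)
    (hg : ∀ D ∈ T, IsLocalEq (Cm n) D (g D) x) (I : Fin (m * p) → Fin n) :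
    ∃ Q : X → ℂ, HolV (Cm n) Q x ∧ ∀ᶠ y in 𝓝 x, ∀ z, j z = y → f z ∉ ⋃₀ 𝒢 →
      (∀ D, K D ≠ 0 → y ∉ D) →
        σ (f z) * tT f m (fun w => e (j w)) I z * ∏ D ∈ T, g D y ^ K D = Q y := by
  classical
  obtain ⟨T₀, g₀, hT₀, hg₀, ha₀⟩ := hpole
  choose a ha hae using ha₀
  obtain ⟨hj0, hj₁, hj₂, -⟩ := hj
  have hjh : ∀ z, HolM (Cm n) (Cm n) j z := fun z => hj0 z
  set c : Chart n X := chartAt (Cm n) x with hc
  have hcx : At c x := AMP.at_chartAt x
  have hfin : {D | K D ≠ 0}.Finite := T.finite_toSet.subset fun D hD => hT D hD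
  have hu : ∀ D, ∃ u : X → ℂ, K D ≠ 0 → HolV (Cm n) u x ∧ ∀ᶠ y in 𝓝 x, g D y = g₀ D y * u y := by
    intro D
    by_cases hD : K D = 0
    · exact ⟨0, fun h0 => absurd hD h0⟩
    · obtain ⟨u, h1, -, h2⟩ := leq_unit (hg₀ D (hT₀ D hD)) (hg D (hT D hD))
      exact ⟨u, fun _ => ⟨h1, h2⟩⟩
  choose u hu using hu
  have hprod : ∀ (T' : Finset (Set X)) (_ : ∀ D, K D ≠ 0 → D ∈ T') (g' : Set X → X → ℂ) (y : X),
      ∏ D ∈ T', g' D y ^ K D = ∏ D ∈ hfin.toFinset, g' D y ^ K D := by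
    intro T' hT' g' y
    symm
    refine Finset.prod_subset (fun D hD => hT' D (hfin.mem_toFinset.1 hD)) fun D _ hD => ?_
    have h1 : K D = 0 := by
      by_contra h2
      exact hD (hfin.mem_toFinset.2 h2)
    rw [h1, pow_zero]
  refine ⟨fun y => (∑ L : Fin (m * p) → Fin n, (∏ b, jacM e c y (L b) (I b)) * a L y) *
    ∏ D ∈ hfin.toFinset, u D y ^ K D, ?_, ?_⟩
  · refine (HolV.sum fun L _ => (HolV.prod fun b _ => holV_jacM h hcx (L b) (I b)).mul (ha L)).mul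
      (HolV.prod fun D hD => (hu D (hfin.mem_toFinset.1 hD)).1.pow _)
  · have h1 : ∀ᶠ y in 𝓝 x, ∀ D ∈ hfin.toFinset, g D y = g₀ D y * u D y := by
      rw [Filter.eventually_all_finset]
      exact fun D hD => (hu D (hfin.mem_toFinset.1 hD)).2
    have h2 : ∀ᶠ y in 𝓝 x, ∀ D ∈ hfin.toFinset, (y ∈ D ↔ g₀ D y = 0) := by
      rw [Filter.eventually_all_finset]
      intro D hD
      exact (hg₀ D (hT₀ D (hfin.mem_toFinset.1 hD))).eventually.mono fun y hy => hy.mem_iff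
    filter_upwards [h1, h2, eventually_all.2 hae, e.open_source.mem_nhds h.2,
      c.open_source.mem_nhds hcx.2] with y k1 k2 k3 k4 k5 z hz hzS hzD
    subst hz
    have k6 : ∏ D ∈ T₀, g₀ D (j z) ^ K D ≠ 0 := by
      rw [hprod T₀ hT₀]
      refine Finset.prod_ne_zero_iff.2 fun D hD => pow_ne_zero _ fun h0 => ?_
      exact hzD D (hfin.mem_toFinset.1 hD) ((k2 D hD).2 h0)
    have k7 : ∀ G ∈ 𝒢, f z ∉ G := fun G hG hzG => hzS (mem_sUnion_of_mem hzG hG)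
    have k8 : ∏ D ∈ T, g D (j z) ^ K D =
        (∏ D ∈ T₀, g₀ D (j z) ^ K D) * ∏ D ∈ hfin.toFinset, u D (j z) ^ K D := by
      rw [hprod T hT, hprod T₀ hT₀, ← Finset.prod_mul_distrib]
      refine Finset.prod_congr rfl fun D hD => ?_
      rw [k1 D hD, mul_pow]
    rw [k8, tT_change hjh hj₂ f m (e := e) (e' := c) ⟨h.1, k4⟩ ⟨hcx.1, k5⟩ I, ← mul_assoc]
    congr 1
    rw [Finset.mul_sum, Finset.sum_mul]
    refine Finset.sum_congr rfl fun L _ => ?_
    rw [← k3 L z rfl k7 k6]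
    ring

variable [T2Space Y] [ConnectedSpace Y]

/-- **the tensor of the power of `σ`** -/
theorem ten_of_pole {m : ℕ} {K : Set X → ℕ} {𝒢 : Set (Set Y)} {j : Z → X}
    (hj : J.IsBigOpen (Cm n) j) {f : Z → Y} (h𝒢 : IsThin p f 𝒢) {σ : Y → ℂ}
    (hfin : {D | K D ≠ 0}.Finite) (hpr : ∀ D, K D ≠ 0 → IsPrimeDivisor (Cm n) D)
    (hpole : ∀ x, PoleAt n p m K 𝒢 j f σ x) {l : ℕ} (hl : 0 < l) :
    ∃ τ : Ten n (m * l * p) X, IsTenP (m * l * p) (fun D => K D * l) τ ∧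
      ∀ e z, At e (j z) → f z ∉ ⋃₀ 𝒢 → (∀ D, K D ≠ 0 → j z ∉ D) →
        ∀ I, τ e (e (j z)) I = σ (f z) ^ l * tT f (m * l) (fun w => e (j w)) I z := by
  classical
  obtain ⟨hj0, hj₁, hj₂, -⟩ := id hj
  have hjh : ∀ z, HolM (Cm n) (Cm n) j z := fun z => hj0 z
  have hK : ∀ D, K D * l ≠ 0 ↔ K D ≠ 0 := fun D =>
    ⟨fun h => left_ne_zero_of_mul h, fun h => mul_ne_zero h hl.ne'⟩
  set Ω : Set X := {x | ∃ z, j z = x ∧ f z ∉ ⋃₀ 𝒢} ∩ (⋃₀ {D | K D ≠ 0})ᶜ with hΩ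
  have hD := dense_compl_sUnion (n := n) (Z := X) hfin hpr
  have hΩd : Dense Ω := (h𝒢.denseX hj).inter_of_isOpen_right hD.1 hD.2.isOpen_compl
  have hmem : ∀ y, y ∈ (⋃₀ {D | K D ≠ 0})ᶜ ↔ ∀ D, K D ≠ 0 → y ∉ D := by
    intro y
    simp only [mem_compl_iff, mem_sUnion, mem_ofPred_eq, not_exists, not_and]
  obtain ⟨τ, h1, h2⟩ := ten_of_loc (n := n) (K := fun D => K D * l) (Ω := Ω)
    (by simpa only [hK] using hfin) (fun D hD => hpr D ((hK D).1 hD)) hΩd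
    (H := fun e I x => hX j f (m * l) (fun y => σ y ^ l) e I x) (by
      intro e x h T g hT hg I
      have hT' : ∀ D, K D ≠ 0 → D ∈ T := fun D hD => hT D ((hK D).2 hD)
      choose Q hQ hQe using fun s : Fin l => loc_of_pole hj (hpole x) h hT' hg (sub I s)
      refine ⟨fun y => ∏ s, Q s y, HolV.prod fun s _ => hQ s, ?_⟩
      filter_upwards [eventually_all.2 hQe] with y hy hyΩ
      obtain ⟨⟨z, rfl, hz⟩, hyD⟩ := hyΩ
      have h3 := (hmem (j z)).1 hyD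
      rw [hX_j hj₁]
      have h4 : ∏ s, Q s (j z) = ∏ s : Fin l,
          (σ (f z) * tT f m (fun w => e (j w)) (sub I s) z * ∏ D ∈ T, g D (j z) ^ K D) :=
        Finset.prod_congr rfl fun s _ => (hy s z rfl hz h3).symm
      have h5 : ∏ D ∈ T, g D (j z) ^ (K D * l) = (∏ D ∈ T, g D (j z) ^ K D) ^ l := by
        rw [← Finset.prod_pow]
        exact Finset.prod_congr rfl fun D _ => by rw [pow_mul]
      rw [h4, h5, Finset.prod_mul_distrib, Finset.prod_mul_distrib]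
      simp only [tT, tq_sub, Finset.prod_const, Finset.card_univ, Fintype.card_fin]) (by
      rintro e e' y h h' ⟨⟨z, rfl, hz⟩, -⟩ I
      simp only [hX_j hj₁, tenPull]
      rw [tT_change hjh hj₂ f (m * l) (e := e) (e' := e') h h' I, Finset.mul_sum]
      exact Finset.sum_congr rfl fun K _ => by ring)
  refine ⟨τ, h1, fun e z h hz hzD I => ?_⟩
  rw [h2 e (j z) h ⟨⟨z, rfl, hz⟩, (hmem _).2 hzD⟩ (fun D hD => hzD D ((hK D).1 hD)) I, hX_j hj₁]

end Vale.Agent.P281.H498
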