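import Vale.Agent.P281.H498.TL.Thin

/-! P281, theorem TL, row T2: tensors from their local extensions. -/

open scoped Manifold ContDiff Topology ComplexOrder
open Set Filter Vale.Agent.P272.K

noncomputable section

namespace Vale.Agent.P281.H498

open Vale.Agent.P281 Vale.Agent.P281.MF Vale.Agent.P281.ISO Vale.Agent.P281.H713.SA
open Vale.Agent.P281.H716 Vale.Agent.P299.D Vale.Agent.P281.H787 Vale.Agent.P281.H713.KD

set_option linter.unusedSectionVars false

variable {n p M : ℕ} {X Z Y : Type}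
  [TopologicalSpace X] [T2Space X] [ChartedSpace (Cm n) X] [IsManifold 𝓘(ℂ, Cm n) ω X]
  [TopologicalSpace Z] [ChartedSpace (Cm n) Z] [IsManifold 𝓘(ℂ, Cm n) ω Z]
  [TopologicalSpace Y] [ChartedSpace (Cm p) Y] [IsManifold 𝓘(ℂ, Cm p) ω Y]

/-- **tensors with poles from their components on a dense set**, which extend locally after
multiplication by the equations of the poles. -/
theorem ten_of_loc {q : ℕ} {K : Set X → ℕ} (hfin : {D | K D ≠ 0}.Finite)
    (hpr : ∀ D, K D ≠ 0 → IsPrimeDivisor (Cm n) D) {Ω : Set X} (hΩd : Dense Ω)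
    {H : Chart n X → (Fin q → Fin n) → X → ℂ}
    (hlocP : ∀ e x, At e x → ∀ (T : Finset (Set X)) (g : Set X → X → ℂ),
      (∀ D, K D ≠ 0 → D ∈ T) → (∀ D ∈ T, IsLocalEq (Cm n) D (g D) x) → ∀ I, ∃ Q : X → ℂ,
        HolV (Cm n) Q x ∧ ∀ᶠ y in 𝓝 x, y ∈ Ω → H e I y * ∏ D ∈ T, g D y ^ K D = Q y)
    (hch : ∀ e e' y, At e y → At e' y → y ∈ Ω → ∀ I,
      H e I y = tenPull (jacM e e' y) (fun L => H e' L y) I) :
    ∃ τ : Ten n q X, IsTenP q K τ ∧ ∀ e y, At e y → y ∈ Ω → (∀ D, K D ≠ 0 → y ∉ D) →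
      ∀ I, τ e (e y) I = H e I y := by
  classical
  -- local equations exist
  have heqn : ∀ x, ∃ g : Set X → X → ℂ, ∀ D ∈ hfin.toFinset, IsLocalEq (Cm n) D (g D) x := by
    intro x
    have hch : ∀ D, ∃ g : X → ℂ, D ∈ hfin.toFinset → IsLocalEq (Cm n) D g x := by
      intro D
      by_cases hD : D ∈ hfin.toFinset
      · obtain ⟨e', he'⟩ := (hpr D (hfin.mem_toFinset.1 hD)).2.1 x
        exact ⟨e', fun _ => he'⟩
      · exact ⟨0, fun h => absurd h hD⟩
    choose g hg using hch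
    exact ⟨g, hg⟩
  -- local extensions off the poles
  have hloc : ∀ (e : Chart n X) (I : Fin q → Fin n) (x : X), At e x →
      (∀ D, K D ≠ 0 → x ∉ D) → ∃ Q : X → ℂ, HolV (Cm n) Q x ∧
        ∀ᶠ y in 𝓝 x, y ∈ Ω → H e I y = Q y := by
    intro e I x hx hav
    obtain ⟨g, hg⟩ := heqn x
    obtain ⟨Q, hQ, hQe⟩ := hlocP e x hx hfin.toFinset g
      (fun D hD => hfin.mem_toFinset.2 hD) hg I
    have hPh : HolV (Cm n) (fun y => ∏ D ∈ hfin.toFinset, g D y ^ K D) x :=
      HolV.prod fun D hD => HolV.pow (hg D hD).holAt _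
    have hP0 : ∏ D ∈ hfin.toFinset, g D x ^ K D ≠ 0 := by
      refine Finset.prod_ne_zero_iff.2 fun D hD => pow_ne_zero _ fun h0 => ?_
      exact hav D (hfin.mem_toFinset.1 hD) ((hg D hD).mem_iff.2 h0)
    refine ⟨fun y => Q y / ∏ D ∈ hfin.toFinset, g D y ^ K D, HolV.div hQ hPh hP0, ?_⟩
    filter_upwards [hQe, hPh.continuousAt.eventually_ne hP0] with y h1 h2 hy
    rw [eq_div_iff h2]
    exact h1 hy
  have havoid : ∀ x, (∀ D, K D ≠ 0 → x ∉ D) → ∀ᶠ y in 𝓝 x, ∀ D, K D ≠ 0 → y ∉ D := by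
    intro x hav
    have h1 : ∀ᶠ y in 𝓝 x, ∀ D ∈ hfin.toFinset, y ∉ D := by
      rw [Filter.eventually_all_finset]
      intro D hD
      exact ((hpr D (hfin.mem_toFinset.1 hD)).1.isOpen_compl).mem_nhds
        (hav D (hfin.mem_toFinset.1 hD))
    filter_upwards [h1] with y hy D hD
    exact hy D (hfin.mem_toFinset.2 hD)
  refine ⟨fun e z I => if e ∈ atlas (Cm n) X then ext (Cm n) Ω (H e I) (e.symm z)
    else 0, ⟨?_, ?_⟩, ?_⟩
  · intro e x h T g hT hg I
    simp only [if_pos h.1]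
    obtain ⟨Q, hQ, hQe⟩ := hlocP e x h T g hT hg I
    refine ⟨fun z => Q (e.symm z), analyticAt_symm h hQ, ?_⟩
    have hgev : ∀ᶠ y in 𝓝 x, ∀ D ∈ T, IsLocalEq (Cm n) D (g D) y := by
      rw [Filter.eventually_all_finset]
      exact fun D hD => IsLocalEq.eventually (hg D hD)
    have hsymm : Tendsto e.symm (𝓝 (e x)) (𝓝 x) := by
      have := (e.continuousAt_symm (e.map_source h.2)).tendsto
      rwa [e.left_inv h.2] at this
    have hev : ∀ᶠ y in 𝓝 x, ∏ D ∈ T, g D y ^ K D ≠ 0 →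
        ext (Cm n) Ω (H e I) y * ∏ D ∈ T, g D y ^ K D = Q y := by
      filter_upwards [hgev, hQ.eventually, hQe.eventually_nhds, e.open_source.mem_nhds h.2] with
        y h1 h2 h3 h4 h5
      have hav : ∀ D, K D ≠ 0 → y ∉ D := by
        intro D hD hyD
        refine h5 (Finset.prod_eq_zero (hT D hD) ?_)
        rw [(h1 D (hT D hD)).mem_iff.1 hyD, zero_pow hD]
      have h6 := hloc e I y ⟨h.1, h4⟩ hav
      have h7 : HolV (Cm n) (fun y => ∏ D ∈ T, g D y ^ K D) y :=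
        HolV.prod fun D hD => HolV.pow (h1 D hD).holAt _
      refine eq_of_dense (x := y) (g := fun y => ext (Cm n) Ω (H e I) y *
        ∏ D ∈ T, g D y ^ K D) (h := Q) hΩd
        ((ext_holV hΩd h6).continuousAt.mul h7.continuousAt) h2.continuousAt ?_
      filter_upwards [h3, havoid y hav, e.open_source.mem_nhds h4] with w hw1 hw2 hw3 hw
      rw [ext_self hΩd (hloc e I w ⟨h.1, hw3⟩ hw2) hw]
      exact hw1 hw
    exact hsymm.eventually hev
  · intro e e' x h h' hav I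
    simp only [tenPull, if_pos h.1, if_pos h'.1, e.left_inv h.2, e'.left_inv h'.2]
    refine eq_of_dense (x := x) (g := fun y => ext (Cm n) Ω (H e I) y)
      (h := fun y => ∑ L : Fin q → Fin n, (∏ a, jacM e e' y (L a) (I a)) *
        ext (Cm n) Ω (H e' L) y) hΩd
      (ext_holV hΩd (hloc e I x h hav)).continuousAt ?_ ?_
    · refine tendsto_finsetSum _ fun L _ => Tendsto.mul ?_
        (ext_holV hΩd (hloc e' L x h' hav)).continuousAt
      exact tendsto_finsetProd _ fun a _ => contAt_jacM h h' (L a) (I a)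
    · filter_upwards [e.open_source.mem_nhds h.2, e'.open_source.mem_nhds h'.2,
        havoid x hav] with y h1 h2 h4 hy
      have h3 : ∀ L, ext (Cm n) Ω (H e' L) y = H e' L y := fun L =>
        ext_self hΩd (hloc e' L y ⟨h'.1, h2⟩ h4) hy
      rw [ext_self hΩd (hloc e I y ⟨h.1, h1⟩ h4) hy]
      simp only [h3]
      exact hch e e' y ⟨h.1, h1⟩ ⟨h'.1, h2⟩ hy I
  · intro e y h hy hav I
    simp only [if_pos h.1, e.left_inv h.2]
    rw [ext_self hΩd (hloc e I y h hav) hy]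

end Vale.Agent.P281.H498
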