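import Vale.Agent.P281.H498.LD.BrC

/-! P281, theorem TL: the preimage of a divisor is nowhere dense, if `f` is submersive somewhere. -/

open scoped Manifold ContDiff Topology ComplexOrder
open Set Filter Vale.Agent.P272.K

noncomputable section

namespace Vale.Agent.P281.H498

open Vale.Agent.P281 Vale.Agent.P281.MF Vale.Agent.P281.ISO Vale.Agent.P281.H713.SA
open Vale.Agent.P281.H716 Vale.Agent.P299.D Vale.Agent.P281.H787 Vale.Agent.P281.H713.KD

set_option linter.unusedSectionVars false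

/-- submersions are open -/
theorem nhds_le_mapT {n p : ℕ} {Z Y : Type} [TopologicalSpace Z] [ChartedSpace (Cm n) Z]
    [IsManifold 𝓘(ℂ, Cm n) ω Z] [TopologicalSpace Y] [ChartedSpace (Cm p) Y]
    [IsManifold 𝓘(ℂ, Cm p) ω Y] {f : Z → Y} {z : Z} (hf : HolM (Cm n) (Cm p) f z)
    (hs : Function.Surjective (dM (Cm n) (Cm p) f z)) : 𝓝 (f z) ≤ map f (𝓝 z) := by
  set φ := chartAt (Cm n) z with hφ
  set ψ := chartAt (Cm p) (f z) with hψ
  have hz : z ∈ φ.source := mem_chart_source (Cm n) z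
  have hy : f z ∈ ψ.source := mem_chart_source (Cm p) (f z)
  have hψf : HolV (Cm n) (fun w => ψ (f w)) z := HolV.comp (h := (ψ : Y → Cm p)) (HolV.chart hy) hf
  have h1 : ContDiffAt ℂ ω ((fun w => ψ (f w)) ∘ φ.symm) (φ z) := hψf.rep hz
  have h2 := dV_eq_chart hz hψf
  have h3 := dV_comp (h := (ψ : Y → Cm p)) (HolV.chart hy) hf
  have hsurj : Function.Surjective (fderiv ℂ ((fun w => ψ (f w)) ∘ φ.symm) (φ z)) := by
    intro y
    obtain ⟨v, hv⟩ : ∃ v, dV (Cm p) (ψ : Y → Cm p) (f z) v = y :=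
      ⟨Ring.inverse (dV (Cm p) (ψ : Y → Cm p) (f z)) y,
        congrArg (fun T : Cm p →L[ℂ] Cm p => T y)
          (Ring.mul_inverse_cancel _ (isUnit_dV_chart (E := Cm p) hy))⟩
    obtain ⟨u, hu⟩ := hs v
    refine ⟨dV (Cm n) (φ : Z → Cm n) z u, ?_⟩
    have h4 := congrArg (fun T : Cm n →L[ℂ] Cm p => T u) h2
    have h5 := congrArg (fun T : Cm n →L[ℂ] Cm p => T u) h3
    simp only [ContinuousLinearMap.comp_apply] at h4 h5
    rw [← h4, h5, hu, hv]
  have h4 := (h1.hasStrictFDerivAt (by simp)).map_nhds_eq_of_surj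
    (LinearMap.range_eq_top.2 hsurj)
  have h5 : ((fun w => ψ (f w)) ∘ φ.symm) (φ z) = ψ (f z) := by
    simp [φ.left_inv hz]
  rw [h5] at h4
  have h6 : map (φ : Z → Cm n) (𝓝 z) = 𝓝 (φ z) := φ.map_nhds_eq hz
  have h7 : map ψ.symm (𝓝 (ψ (f z))) = 𝓝 (f z) := by
    have := ψ.symm.map_nhds_eq (ψ.map_source hy)
    rwa [ψ.left_inv hy] at this
  rw [← h7, ← h4, ← h6, map_map, map_map]
  refine (Filter.map_congr ?_).le
  filter_upwards [φ.open_source.mem_nhds hz,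
    hf.continuousAt.eventually (ψ.open_source.mem_nhds hy)] with w h8 h9
  show ψ.symm (ψ (f (φ.symm (φ w)))) = f w
  rw [φ.left_inv h8, ψ.left_inv h9]

variable {n p M : ℕ} {X Z Y : Type}
  [TopologicalSpace X] [ChartedSpace (Cm n) X] [IsManifold 𝓘(ℂ, Cm n) ω X]
  [TopologicalSpace Z] [ChartedSpace (Cm n) Z] [IsManifold 𝓘(ℂ, Cm n) ω Z]
  [TopologicalSpace Y] [ChartedSpace (Cm p) Y] [IsManifold 𝓘(ℂ, Cm p) ω Y]

/-- local equations of a finite union of prime divisors -/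
theorem exists_eqn {𝒢 : Set (Set Y)} (h𝒢fin : 𝒢.Finite)
    (h𝒢pr : ∀ G ∈ 𝒢, IsPrimeDivisor (Cm p) G) (y : Y) :
    ∃ g : Y → ℂ, HolV (Cm p) g y ∧ ∀ᶠ y' in 𝓝 y, y' ∈ ⋃₀ 𝒢 ↔ g y' = 0 := by
  classical
  have hch : ∀ G, ∃ g : Y → ℂ, G ∈ h𝒢fin.toFinset → IsLocalEq (Cm p) G g y := by
    intro G
    by_cases hG : G ∈ h𝒢fin.toFinset
    · obtain ⟨g, hg⟩ := (h𝒢pr G (h𝒢fin.mem_toFinset.1 hG)).2.1 y
      exact ⟨g, fun _ => hg⟩
    · exact ⟨0, fun h => absurd h hG⟩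
  choose g hg using hch
  refine ⟨fun y => ∏ G ∈ h𝒢fin.toFinset, g G y, HolV.prod fun G hG => (hg G hG).holAt, ?_⟩
  have h1 : ∀ᶠ y' in 𝓝 y, ∀ G ∈ h𝒢fin.toFinset, IsLocalEq (Cm p) G (g G) y' := by
    rw [Filter.eventually_all_finset]
    exact fun G hG => (hg G hG).eventually
  filter_upwards [h1] with y' hy'
  rw [Finset.prod_eq_zero_iff, mem_sUnion]
  constructor
  · rintro ⟨G, hG, hyG⟩
    have hG' := h𝒢fin.mem_toFinset.2 hG
    exact ⟨G, hG', (hy' G hG').mem_iff.1 hyG⟩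
  · rintro ⟨G, hG, hyG⟩
    exact ⟨G, h𝒢fin.mem_toFinset.1 hG, (hy' G hG).mem_iff.2 hyG⟩

/-- **the preimage of a divisor is nowhere dense** -/
theorem thin_of_sub [PreconnectedSpace X] {j : Z → X} (hj : J.IsBigOpen (Cm n) j) {f : Z → Y}
    (hf : ContMDiff 𝓘(ℂ, Cm n) 𝓘(ℂ, Cm p) ω f)
    (hsub : ∃ z, Function.Surjective (mfderiv 𝓘(ℂ, Cm n) 𝓘(ℂ, Cm p) f z))
    {𝒢 : Set (Set Y)} (h𝒢fin : 𝒢.Finite) (h𝒢pr : ∀ G ∈ 𝒢, IsPrimeDivisor (Cm p) G) :
    IsThin p f 𝒢 := by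
  classical
  refine ⟨h𝒢fin, h𝒢pr, ?_⟩
  obtain ⟨hj0, hj₁, hj₂, hthinj⟩ := id hj
  have hfh : ∀ z, HolM (Cm n) (Cm p) f z := fun z => hf z
  set S : Set Y := ⋃₀ 𝒢 with hS
  have hjd : Dense (range j) := by
    intro x
    obtain ⟨h, -, hne, hev⟩ := hthinj x
    rw [mem_closure_iff_frequently]
    intro hcon
    apply hne
    filter_upwards [hcon, hev] with z hz hz'
    exact hz'.1 hz
  -- the local alternative
  have hloc : ∀ z₀, (∀ᶠ w in 𝓝 z₀, f w ∈ S) ∨
      ∀ᶠ w in 𝓝 z₀, ¬ ∀ᶠ w' in 𝓝 w, f w' ∈ S := by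
    intro z₀
    obtain ⟨g, hg, hgS⟩ := exists_eqn h𝒢fin h𝒢pr (f z₀)
    have hgf : HolV (Cm n) (fun w => g (f w)) z₀ := HolV.comp (h := g) hg (hfh z₀)
    have hfc : Tendsto f (𝓝 z₀) (𝓝 (f z₀)) := (hfh z₀).continuousAt
    have hev : ∀ᶠ w in 𝓝 z₀, f w ∈ S ↔ g (f w) = 0 := hfc.eventually hgS
    by_cases h0 : ∀ᶠ w in 𝓝 z₀, g (f w) = 0
    · left
      filter_upwards [h0, hev] with w h1 h2
      exact h2.2 h1
    · right
      filter_upwards [ne_frequently hgf h0, hev.eventually_nhds] with w h1 h2 h3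
      obtain ⟨w', h4, h5, h6⟩ := (h1.and_eventually (h2.and h3)).exists
      exact h4 (h5.1 h6)
  set W : Set X := interior {x | ∀ z, j z = x → f z ∈ S} with hW
  have hWj : ∀ w, j w ∈ W ↔ ∀ᶠ w' in 𝓝 w, f w' ∈ S := by
    intro w
    rw [hW, mem_interior_iff_mem_nhds, ← hj₁.map_nhds_eq w, mem_map]
    constructor
    · intro h
      filter_upwards [h] with w' hw' using hw' w' rfl
    · intro h
      filter_upwards [h] with w' hw' z hz
      rw [hj₁.injective hz]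
      exact hw'
  have hWo : IsOpen W := isOpen_interior
  have hWc : IsClosed W := by
    refine isClosed_of_closure_subset fun x hx => ?_
    obtain ⟨Q, hQ, hQe⟩ := ext_big (E := Cm n) (h := fun y => if y ∈ W then (1 : ℂ) else 0)
      (Ω := range j) hj₁ hthinj le_rfl hjd isOpen_univ (by
        rintro x₁ - ⟨z₀, rfl⟩
        rcases hloc z₀ with h1 | h1
        · refine ⟨fun _ => 1, HolV.const 1 _, ?_⟩
          filter_upwards [hWo.mem_nhds ((hWj z₀).2 h1)] with y hy _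
          rw [if_pos hy]
        · refine ⟨fun _ => 0, HolV.const 0 _, ?_⟩
          rw [← hj₁.map_nhds_eq z₀, eventually_map]
          filter_upwards [h1] with w hw _
          rw [if_neg fun h2 => hw ((hWj w).1 h2)]) (mem_univ x)
    have hfr : ∃ᶠ y in 𝓝 x, y ∈ W ∩ range j := by
      rw [← mem_closure_iff_frequently]
      have h1 : W ⊆ closure (W ∩ range j) := fun y hy => by
        rw [mem_closure_iff_nhds]
        intro t ht
        obtain ⟨y', h2, h3⟩ := mem_closure_iff_nhds.1 (hjd y) _ (inter_mem ht (hWo.mem_nhds hy))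
        exact ⟨y', h2.1, h2.2, h3⟩
      exact closure_minimal h1 isClosed_closure hx
    have hQ1 : Q x = 1 := by
      by_contra hne
      have h1 : ∀ᶠ y in 𝓝 x, Q y ≠ 1 := hQ.continuousAt.eventually_ne hne
      obtain ⟨y, ⟨h2, h3⟩, h4, h5⟩ := (hfr.and_eventually (h1.and hQe)).exists
      apply h4
      rw [← h5 h3, if_pos h2]
    have h1 : ∀ᶠ y in 𝓝 x, Q y ≠ 0 :=
      hQ.continuousAt.eventually_ne (by rw [hQ1]; exact one_ne_zero)
    rw [hW, mem_interior_iff_mem_nhds]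
    filter_upwards [h1, hQe] with y h2 h3 z hz
    have h4 := h3 ⟨z, hz⟩
    have h5 : y ∈ W := by
      by_contra h6
      rw [if_neg h6] at h4
      exact h2 h4.symm
    exact interior_subset h5 z hz
  rcases isClopen_iff.1 ⟨hWc, hWo⟩ with h0 | h1
  · intro z
    rw [mem_closure_iff_frequently]
    intro hcon
    have h2 : j z ∈ W := (hWj z).2 (by
      filter_upwards [hcon] with w hw
      exact not_not.1 hw)
    rw [h0] at h2
    exact h2
  · exfalso
    obtain ⟨z₀, hz₀⟩ := hsub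
    have hall : ∀ z, f z ∈ S := fun z => by
      have h2 : j z ∈ W := by rw [h1]; trivial
      exact interior_subset h2 z rfl
    have h2 : ∀ᶠ y in 𝓝 (f z₀), y ∈ S := by
      have h3 : ∀ᶠ y in map f (𝓝 z₀), y ∈ S := by
        rw [eventually_map]
        exact Eventually.of_forall hall
      exact nhds_le_mapT (hfh z₀) hz₀ h3
    have h3 := (dense_compl_sUnion (n := p) h𝒢fin h𝒢pr).1 (f z₀)
    rw [mem_closure_iff_frequently] at h3
    obtain ⟨y, h4, h5⟩ := (h3.and_eventually h2).exists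
    exact h4 h5

end Vale.Agent.P281.H498
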